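import Vale.Agent.P369L32.Defs
import Vale.Agent.P369.H400G.Ptr

/-!
P369 (helper32): the annihilation operators are closed, the number states span a core.
-/

set_option linter.all false

namespace Vale.Agent.P369L

open scoped InnerProductSpace ENNReal
open Vale.Agent.P369.Sys (IsNumberBasis)
open Vale.Agent.P369Y

noncomputable section

variable {H : Type} [NormedAddCommGroup H] [InnerProductSpace ℂ H] [CompleteSpace H] {m : ℕ}
  {e : (Fin m → ℕ) → H}

theorem hasSum_ket {ι : Type} {e : ι → H} (he : IsNumberBasis e) (ψ : H) :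
    HasSum (fun k => ⟪e k, ψ⟫_ℂ • e k) ψ := by
  have h := (hb he).hasSum_repr ψ
  simpa only [HilbertBasis.repr_apply_apply, hb_apply] using h

theorem inner_ket (he : IsNumberBasis e) (k k' : Fin m → ℕ) :
    ⟪e k, e k'⟫_ℂ = if k = k' then 1 else 0 := orthonormal_iff_ite.1 he.1 k k'

/-- the coefficients of `a_j ψ` -/
def lower (e : (Fin m → ℕ) → H) (j : Fin m) (ψ : H) (k : Fin m → ℕ) : ℂ :=
  (√(k j + 1) : ℝ) * ⟪e (k + Pi.single j 1), ψ⟫_ℂ

theorem ann_graph (he : IsNumberBasis e) (j : Fin m) : (ann e j).graph = annGraph e j := by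
  refine Submodule.toLinearPMap_graph_eq _ fun p hp h0 => ext_nb he fun k => ?_
  rw [hp k, h0, inner_zero_right, inner_zero_right, mul_zero]

theorem mem_ann (he : IsNumberBasis e) {j : Fin m} {ψ φ : H} :
    (ψ, φ) ∈ (ann e j).graph ↔ ∀ k, ⟪e k, φ⟫_ℂ = lower e j ψ k := by
  rw [ann_graph he]
  rfl

theorem ann_closed (he : IsNumberBasis e) (j : Fin m) : (ann e j).IsClosed := by
  have h : ((ann e j).graph : Set (H × H)) =
      ⋂ k, {p : H × H | ⟪e k, p.2⟫_ℂ = lower e j p.1 k} := by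
    ext ⟨ψ, φ⟩
    simp only [SetLike.mem_coe, mem_ann he, Set.mem_iInter, Set.mem_setOf_eq]
  unfold LinearPMap.IsClosed
  rw [h]
  refine isClosed_iInter fun k => isClosed_eq (continuous_const.inner continuous_snd) ?_
  exact continuous_const.mul (continuous_const.inner continuous_fst)

/-- `a_j |k⟩` -/
def lowKet (e : (Fin m → ℕ) → H) (j : Fin m) (k : Fin m → ℕ) : H :=
  ((√(k j) : ℝ) : ℂ) • e (k - Pi.single j 1)

/-- `a_j† |k⟩` -/
def upKet (e : (Fin m → ℕ) → H) (j : Fin m) (k : Fin m → ℕ) : H :=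
  ((√(k j + 1) : ℝ) : ℂ) • e (k + Pi.single j 1)

theorem inner_upKet (j : Fin m) (k : Fin m → ℕ) (ψ : H) :
    ⟪upKet e j k, ψ⟫_ℂ = lower e j ψ k := by
  unfold upKet lower
  rw [inner_smul_left, Complex.conj_ofReal]

theorem sub_add_single {j : Fin m} {k : Fin m → ℕ} (h : k j ≠ 0) :
    k - Pi.single j 1 + Pi.single j 1 = k := by
  funext i
  by_cases hi : i = j
  · subst hi
    simp only [Pi.add_apply, Pi.sub_apply, Pi.single_eq_same]
    omega
  · simp [hi]

theorem ket_mem (he : IsNumberBasis e) (j : Fin m) (k : Fin m → ℕ) :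
    (e k, lowKet e j k) ∈ (ann e j).graph := by
  rw [mem_ann he]
  intro k'
  unfold lowKet lower
  rw [inner_smul_right, inner_ket he, inner_ket he]
  by_cases h : k' + Pi.single j 1 = k
  · subst h
    simp
  · rw [if_neg h, mul_zero]
    by_cases h0 : k j = 0
    · simp [h0]
    · rw [if_neg, mul_zero]
      rintro rfl
      exact h (sub_add_single h0)

theorem hasSum_lowKet (he : IsNumberBasis e) {j : Fin m} {ψ φ : H}
    (h : (ψ, φ) ∈ (ann e j).graph) : HasSum (fun k => ⟪e k, ψ⟫_ℂ • lowKet e j k) φ := by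
  have hi : Function.Injective fun k : Fin m → ℕ => k + Pi.single j 1 := add_left_injective _
  rw [← hi.hasSum_iff]
  · refine (hasSum_ket he φ).congr_fun fun k => ?_
    rw [(mem_ann he).1 h k]
    simp only [Function.comp_apply, lowKet, lower, add_tsub_cancel_right, Pi.add_apply,
      Pi.single_eq_same, smul_smul, Nat.cast_add, Nat.cast_one]
    rw [mul_comm]
  · intro k hk
    have h0 : k j = 0 := by
      by_contra h0
      exact hk ⟨_, sub_add_single h0⟩
    simp [lowKet, h0]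

theorem mem_of_hasSum {E : Type} [NormedAddCommGroup E] [NormedSpace ℂ E] {ι : Type}
    {S : Submodule ℂ E} (hS : IsClosed (S : Set E)) {v : ι → E} {x : E} (h : HasSum v x)
    (hv : ∀ i, v i ∈ S) : x ∈ S :=
  hS.mem_of_tendsto h (Filter.Eventually.of_forall fun s => S.sum_mem fun i _ => hv i)

theorem dense_dom (he : IsNumberBasis e) (j : Fin m) : Dense ((ann e j).domain : Set H) := by
  intro ψ
  refine mem_of_hasSum (S := (ann e j).domain.topologicalClosure)
    (Submodule.isClosed_topologicalClosure _) (hasSum_ket he ψ) fun k => ?_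
  refine Submodule.le_topologicalClosure _ (Submodule.smul_mem _ _ ?_)
  exact LinearPMap.mem_domain_of_mem_graph (ket_mem he j k)

theorem upKet_mem (he : IsNumberBasis e) (j : Fin m) (k : Fin m → ℕ) :
    (e k, upKet e j k) ∈ (ann e j).adjoint.graph := by
  have key : ∀ x : (ann e j).domain, ⟪upKet e j k, (x : H)⟫_ℂ = ⟪e k, ann e j x⟫_ℂ := by
    intro x
    rw [inner_upKet, (mem_ann he).1 ((ann e j).mem_graph x) k]
  have hd : e k ∈ (ann e j).adjoint.domain :=
    LinearPMap.mem_adjoint_domain_of_exists _ ⟨upKet e j k, key⟩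
  rw [LinearPMap.mem_graph_iff]
  exact ⟨⟨e k, hd⟩, rfl, LinearPMap.adjoint_apply_eq (dense_dom he j) ⟨e k, hd⟩ key⟩

theorem mem_conj {U : H ≃ₗᵢ[ℂ] H} {A : H →ₗ.[ℂ] H} {ψ φ : H} :
    (ψ, φ) ∈ (conj U A).graph ↔ (U ψ, U φ) ∈ A.graph := by
  rw [LinearPMap.mem_graph_iff, LinearPMap.mem_graph_iff]
  constructor
  · rintro ⟨y, h1, h2⟩
    simp only at h1 h2
    refine ⟨⟨U y.1, y.2⟩, by rw [← h1], ?_⟩
    rw [← h2]
    exact (U.apply_symm_apply _).symm
  · rintro ⟨y, h1, h2⟩
    simp only at h1 h2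
    have hm : U ψ ∈ A.domain := h1 ▸ y.2
    refine ⟨⟨ψ, hm⟩, rfl, ?_⟩
    have e0 : y = ⟨U ψ, hm⟩ := Subtype.ext h1
    change U.symm (A ⟨U ψ, hm⟩) = φ
    rw [← e0, h2, U.symm_apply_apply]

theorem conj_closed (U : H ≃ₗᵢ[ℂ] H) {A : H →ₗ.[ℂ] H} (hA : A.IsClosed) :
    (conj U A).IsClosed := by
  have e0 : ((conj U A).graph : Set (H × H)) =
      (fun p : H × H => (U p.1, U p.2)) ⁻¹' A.graph := by
    ext ⟨ψ, φ⟩
    simp only [SetLike.mem_coe, mem_conj, Set.mem_preimage]
  unfold LinearPMap.IsClosed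
  rw [e0]
  exact IsClosed.preimage ((U.continuous.comp continuous_fst).prodMk
    (U.continuous.comp continuous_snd)) hA

theorem mem_sum {A B : H →ₗ.[ℂ] H} {x y : ℂ} {ψ φ : H} :
    (ψ, φ) ∈ (x • A + y • B).graph ↔
      ∃ α β, (ψ, α) ∈ A.graph ∧ (ψ, β) ∈ B.graph ∧ φ = x • α + y • β := by
  rw [LinearPMap.mem_graph_iff]
  constructor
  · rintro ⟨z, h1, h2⟩
    simp only at h1 h2
    refine ⟨A ⟨z.1, z.2.1⟩, B ⟨z.1, z.2.2⟩, ?_, ?_, ?_⟩
    · rw [← h1]; exact A.mem_graph ⟨z.1, z.2.1⟩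
    · rw [← h1]; exact B.mem_graph ⟨z.1, z.2.2⟩
    · rw [← h2]; rfl
  · rintro ⟨α, β, hA, hB, rfl⟩
    obtain ⟨⟨a, ha⟩, h1, h2⟩ := (LinearPMap.mem_graph_iff _).1 hA
    obtain ⟨⟨b, hb⟩, h3, h4⟩ := (LinearPMap.mem_graph_iff _).1 hB
    simp only at h1 h2 h3 h4
    subst h1 h2 h3 h4
    exact ⟨⟨b, ha, hb⟩, rfl, rfl⟩

/-- The relation `U† a_c U = closure (x a_a + y a_b)` from its matrix elements. -/
theorem conj_eq_closure (he : IsNumberBasis e) {U : H ≃ₗᵢ[ℂ] H} {a b c : Fin m} {x y : ℂ}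
    (h : ∀ k k', ⟪upKet e c k', U (e k)⟫_ℂ = ⟪e k', U (x • lowKet e a k + y • lowKet e b k)⟫_ℂ)
    (hfin : ∀ k, U.symm (e k) ∈ Submodule.span ℂ (Set.range e)) :
    conj U (ann e c) = (x • ann e a + y • ann e b).closure := by
  have hc := conj_closed U (ann_closed he c)
  have h1 : ∀ k, (e k, x • lowKet e a k + y • lowKet e b k) ∈ (conj U (ann e c)).graph := by
    intro k
    rw [mem_conj, mem_ann he]
    intro k'
    rw [← inner_upKet, h]
  have h2 : x • ann e a + y • ann e b ≤ conj U (ann e c) := by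
    rw [← LinearPMap.le_graph_iff]
    rintro ⟨ψ, φ⟩ hp
    obtain ⟨α, β, hA, hB, rfl⟩ := mem_sum.1 hp
    have s := (hasSum_ket he ψ).prodMk
      (((hasSum_lowKet he hA).const_smul x).add ((hasSum_lowKet he hB).const_smul y))
    refine mem_of_hasSum hc s fun k => ?_
    have h3 := Submodule.smul_mem _ ⟪e k, ψ⟫_ℂ (h1 k)
    rw [Prod.smul_mk, smul_add, smul_comm ⟪e k, ψ⟫_ℂ x, smul_comm ⟪e k, ψ⟫_ℂ y] at h3
    exact h3
  have hcl : (x • ann e a + y • ann e b).IsClosable := hc.isClosable.leIsClosable h2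
  apply LinearPMap.eq_of_eq_graph
  rw [← hcl.graph_closure_eq_closure_graph]
  apply le_antisymm
  · rintro ⟨ψ, φ⟩ hp
    rw [mem_conj] at hp
    have s := ((hasSum_ket he (U ψ)).mapL (U.symm : H →L[ℂ] H)).prodMk
      ((hasSum_lowKet he hp).mapL (U.symm : H →L[ℂ] H))
    have e1 : (U.symm : H →L[ℂ] H) (U ψ) = ψ := U.symm_apply_apply ψ
    have e2 : (U.symm : H →L[ℂ] H) (U φ) = φ := U.symm_apply_apply φ
    rw [e1, e2] at s
    refine mem_of_hasSum (Submodule.isClosed_topologicalClosure _) s fun k => ?_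
    refine Submodule.le_topologicalClosure _ ?_
    rw [map_smul, map_smul, ← Prod.smul_mk]
    refine Submodule.smul_mem _ _ ?_
    have hd : U.symm (e k) ∈ (x • ann e a + y • ann e b).domain := by
      refine (Submodule.span_le.2 ?_) (hfin k)
      rintro _ ⟨k', rfl⟩
      exact LinearPMap.mem_domain_of_mem_graph
        (mem_sum.2 ⟨_, _, ket_mem he a k', ket_mem he b k', rfl⟩)
    have h4 := (x • ann e a + y • ann e b).mem_graph ⟨_, hd⟩
    have h5 : (U.symm (e k), U.symm (lowKet e c k)) ∈ (conj U (ann e c)).graph := by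
      rw [mem_conj, U.apply_symm_apply, U.apply_symm_apply]
      exact ket_mem he c k
    have h6 := LinearPMap.mem_graph_snd_inj _ (LinearPMap.le_graph_of_le h2 h4) h5 rfl
    rw [h6] at h4
    exact h4
  · exact Submodule.topologicalClosure_minimal _ (LinearPMap.le_graph_of_le h2) hc

/-- The matrix elements of the relation `U† a_c U = closure (x a_a + y a_b)`. -/
theorem elem_of_conj (he : IsNumberBasis e) {U : H ≃ₗᵢ[ℂ] H} {a b c : Fin m} {x y : ℂ}
    (h : conj U (ann e c) = (x • ann e a + y • ann e b).closure) (k k' : Fin m → ℕ) :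
    ⟪upKet e c k', U (e k)⟫_ℂ = ⟪e k', U (x • lowKet e a k + y • lowKet e b k)⟫_ℂ := by
  have h1 : (e k, x • lowKet e a k + y • lowKet e b k) ∈ (x • ann e a + y • ann e b).graph :=
    mem_sum.2 ⟨_, _, ket_mem he a k, ket_mem he b k, rfl⟩
  have h2 := LinearPMap.le_graph_of_le (LinearPMap.le_closure _) h1
  rw [← h, mem_conj, mem_ann he] at h2
  rw [inner_upKet, h2]

/-- `⟨ψ, a_j† a_j ψ⟩ = Σ_k k_j |ψ(k)|²`, also when it is infinite. -/
theorem sqForm_ann (he : IsNumberBasis e) (j : Fin m) (ψ : H) :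
    sqForm (ann e j) ψ =
      ∑' k : Fin m → ℕ, (k j : ℝ≥0∞) * ENNReal.ofReal (‖⟪e k, ψ⟫_ℂ‖ ^ 2) := by
  have hi : Function.Injective fun k : Fin m → ℕ => k + Pi.single j 1 := add_left_injective _
  have e0 : ∑' k : Fin m → ℕ, (k j : ℝ≥0∞) * ENNReal.ofReal (‖⟪e k, ψ⟫_ℂ‖ ^ 2) =
      ∑' k, ENNReal.ofReal (‖lower e j ψ k‖ ^ 2) := by
    rw [← hi.tsum_eq]
    · refine tsum_congr fun k => ?_
      unfold lower
      rw [norm_mul, mul_pow, Complex.norm_real, Real.norm_eq_abs, sq_abs,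
        Real.sq_sqrt (by positivity), ENNReal.ofReal_mul (by positivity)]
      congr 1
      simp only [Pi.add_apply, Pi.single_eq_same]
      rw [← ENNReal.ofReal_natCast, Nat.cast_add, Nat.cast_one]
    · intro k hk
      by_contra h1
      have h0 : k j = 0 := by
        by_contra h0
        exact h1 ⟨_, sub_add_single h0⟩
      simp [h0] at hk
  rw [e0]
  unfold sqForm
  split_ifs with h
  · have h3 := parseval_sq he (ann e j ⟨ψ, h⟩)
    rw [← h3.tsum_eq, ENNReal.ofReal_tsum_of_nonneg (fun _ => by positivity) h3.summable]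
    refine tsum_congr fun k => ?_
    rw [(mem_ann he).1 ((ann e j).mem_graph ⟨ψ, h⟩) k]
  · symm
    by_contra h3
    apply h
    obtain ⟨φ, hφ⟩ := exists_vec he (lower e j ψ)
      ((Ptr.summable_iff_ne_top fun _ => by positivity).2 h3)
    exact LinearPMap.mem_domain_of_mem_graph ((mem_ann he).2 hφ)

end

end Vale.Agent.P369L
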