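import Mathlib

/-!
# P369: unbounded annihilation operators, states, entropy, beam splitter

The definitions are written for a Hilbert space `H` with vectors `e k` (`k ∈ ℕ₀^m`). They are used
for the Fock space `H = ℓ²(ℕ₀^m)` with its number states `e k = |k⟩`, where `⟪e k, ψ⟫ = ψ(k)`.
-/

namespace Vale.Agent.P369L

open scoped InnerProductSpace ENNReal

noncomputable section

variable {H K : Type} [NormedAddCommGroup H] [InnerProductSpace ℂ H] [CompleteSpace H]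
  [NormedAddCommGroup K] [InnerProductSpace ℂ K] [CompleteSpace K] {m n : ℕ}

/-- All pairs `(ψ, φ)` with `φ(k) = √(k_j + 1) ψ(k + e_j)` for all `k`. -/
def annGraph (e : (Fin m → ℕ) → H) (j : Fin m) : Submodule ℂ (H × H) where
  carrier := {p | ∀ k, ⟪e k, p.2⟫_ℂ = (√(k j + 1) : ℝ) * ⟪e (k + Pi.single j 1), p.1⟫_ℂ}
  add_mem' hp hq k := by
    rw [Prod.snd_add, Prod.fst_add, inner_add_right, inner_add_right, hp k, hq k, mul_add]
  zero_mem' k := by simp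
  smul_mem' c p hp k := by
    rw [Prod.smul_snd, Prod.smul_fst, inner_smul_right, inner_smul_right, hp k, mul_left_comm]

/-- The annihilation operator `a_j`: the unbounded operator with graph `annGraph`, that is,
`(a_j ψ)(k) = √(k_j + 1) ψ(k + e_j)` on the maximal domain. -/
def ann (e : (Fin m → ℕ) → H) (j : Fin m) : H →ₗ.[ℂ] H := (annGraph e j).toLinearPMap

/-- `U† A U` for a unitary `U`, with domain `U⁻¹ D(A)`. -/
def conj (U : H ≃ₗᵢ[ℂ] H) (A : H →ₗ.[ℂ] H) : H →ₗ.[ℂ] H where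
  domain := A.domain.comap U.toLinearEquiv.toLinearMap
  toFun := U.symm.toLinearEquiv.toLinearMap ∘ₗ A.toFun ∘ₗ
    U.toLinearEquiv.toLinearMap.submoduleComap A.domain

/-- The first `n` of `2n` modes: `a_j`. -/
def modeA (f : (Fin (n + n) → ℕ) → K) (j : Fin n) : K →ₗ.[ℂ] K := ann f (Fin.castAdd n j)

/-- The last `n` of `2n` modes: `b_j`. -/
def modeB (f : (Fin (n + n) → ℕ) → K) (j : Fin n) : K →ₗ.[ℂ] K := ann f (Fin.natAdd n j)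

/-- The closed operator `x a_j + y b_j`: the closure of the sum on `D(a_j) ∩ D(b_j)`. -/
def mix (f : (Fin (n + n) → ℕ) → K) (x y : ℝ) (j : Fin n) : K →ₗ.[ℂ] K :=
  ((x : ℂ) • modeA f j + (y : ℂ) • modeB f j).closure

/-- The beam splitter of transmissivity `η`: a unitary which fixes the vacuum, with
`U† a_j U = √η a_j + √(1-η) b_j` and `U† b_j U = -√(1-η) a_j + √η b_j`. -/
def IsBeamSplitter (f : (Fin (n + n) → ℕ) → K) (η : ℝ) (U : K ≃ₗᵢ[ℂ] K) : Prop :=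
  U (f 0) = f 0 ∧ ∀ j : Fin n,
    conj U (modeA f j) = mix f (√η) (√(1 - η)) j ∧ conj U (modeB f j) = mix f (-√(1 - η)) (√η) j

/-- The trace of a positive operator, in `[0, ∞]`, computed in the orthonormal basis `b`. -/
def tr {ι : Type} (b : ι → H) (T : H →L[ℂ] H) : ℝ≥0∞ :=
  ∑' i, ENNReal.ofReal (⟪b i, T (b i)⟫_ℂ).re

/-- Density operators. -/
def IsState (e : (Fin m → ℕ) → H) (ρ : H →L[ℂ] H) : Prop := ρ.IsPositive ∧ tr e ρ = 1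

/-- `√ρ`, by the continuous functional calculus. -/
def sqrtOp (ρ : H →L[ℂ] H) : H →L[ℂ] H := cfc Real.sqrt ρ

/-- `-ρ log ρ`, by the continuous functional calculus. -/
def negMulLogOp (ρ : H →L[ℂ] H) : H →L[ℂ] H := cfc (fun x : ℝ => -(x * Real.log x)) ρ

open Classical in
/-- `⟨ψ, A† A ψ⟩ = ‖A ψ‖²`, infinite outside the domain of `A`. -/
def sqForm (A : H →ₗ.[ℂ] H) (ψ : H) : ℝ≥0∞ :=
  if h : ψ ∈ A.domain then ENNReal.ofReal (‖A ⟨ψ, h⟩‖ ^ 2) else ⊤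

/-- The mean photon number `Tr ρ Σ_j a_j† a_j = Σ_j Tr √ρ a_j† a_j √ρ`, in `[0, ∞]`. -/
def meanPhoton (e : (Fin m → ℕ) → H) (ρ : H →L[ℂ] H) : ℝ≥0∞ :=
  ∑ j, ∑' k, sqForm (ann e j) (sqrtOp ρ (e k))

/-- The entropy `S(ρ) = Tr (-ρ log ρ)`, in `[0, ∞]`. -/
def entropy (e : (Fin m → ℕ) → H) (ρ : H →L[ℂ] H) : ℝ≥0∞ := tr e (negMulLogOp ρ)

/-- `g(t) = (t+1) log (t+1) - t log t`. -/
def g (t : ℝ) : ℝ := (t + 1) * Real.log (t + 1) - t * Real.log t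

/-- The entropy photon number `N(ρ) = g⁻¹(S(ρ)/n)`, with `g⁻¹` the inverse of `g` on `[0, ∞)`. -/
def photonNumber (e : (Fin n → ℕ) → H) (ρ : H →L[ℂ] H) : ℝ :=
  Function.invFunOn g (Set.Ici 0) ((entropy e ρ).toReal / n)

/-- `τ = τ_r ⊗ ⋯ ⊗ τ_r`, with `τ_r = Σ_k r^k (r+1)^(-k-1) |k⟩⟨k|`. -/
def IsThermal (e : (Fin m → ℕ) → H) (r : ℝ) (τ : H →L[ℂ] H) : Prop :=
  ∀ k, τ (e k) = ((∏ j, r ^ k j / (r + 1) ^ (k j + 1) : ℝ) : ℂ) • e k

/-- `ψ ⊗ φ = Σ ψ(k) φ(l) |k, l⟩`, with `ψ` on the modes `a_j` and `φ` on the modes `b_j`. -/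
def tmul (e : (Fin n → ℕ) → H) (f : (Fin (n + n) → ℕ) → K) (ψ φ : H) : K :=
  ∑' x : (Fin n → ℕ) × (Fin n → ℕ), (⟪e x.1, ψ⟫_ℂ * ⟪e x.2, φ⟫_ℂ) • f (Fin.append x.1 x.2)

/-- `σ = A ⊗ B`. -/
def IsProduct (e : (Fin n → ℕ) → H) (f : (Fin (n + n) → ℕ) → K) (A B : H →L[ℂ] H)
    (σ : K →L[ℂ] K) : Prop :=
  ∀ ψ φ : H, σ (tmul e f ψ φ) = tmul e f (A ψ) (B φ)

/-- `U σ U†`. -/
def evolve (U : K ≃ₗᵢ[ℂ] K) (σ : K →L[ℂ] K) : K →L[ℂ] K :=
  (U : K →L[ℂ] K) ∘L σ ∘L ContinuousLinearMap.adjoint (U : K →L[ℂ] K)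

/-- `ρ` arises from `σ` by tracing out the modes `b_j`. -/
def IsPartialTrace (e : (Fin n → ℕ) → H) (f : (Fin (n + n) → ℕ) → K) (σ : K →L[ℂ] K)
    (ρ : H →L[ℂ] H) : Prop :=
  ∀ ψ φ : H, HasSum (fun l => ⟪tmul e f ψ (e l), σ (tmul e f φ (e l))⟫_ℂ) ⟪ψ, ρ φ⟫_ℂ

end

end Vale.Agent.P369L
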