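import Vale.Agent.P369L32.Ann
import Vale.Agent.P369.H499.Final

/-!
P369 (helper32): the entropy photon-number inequality on the Fock space of square summable
families, with unbounded annihilation operators.
-/

set_option linter.all false

namespace Vale.Agent.P369L

open scoped InnerProductSpace ENNReal
open Vale.Agent.P369 (Conf up down)
open Vale.Agent.P369Y
open Vale.Agent.P369.Sys (IsNumberBasis)

noncomputable section

section general

variable {H : Type} [NormedAddCommGroup H] [InnerProductSpace ℂ H] [CompleteSpace H]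

theorem sqrtOp_mul {ρ : H →L[ℂ] H} (h : ρ.IsPositive) : sqrtOp ρ * sqrtOp ρ = ρ := by
  have h0 : 0 ≤ ρ := (ContinuousLinearMap.nonneg_iff_isPositive ρ).2 h
  unfold sqrtOp
  rw [← cfc_mul _ _ ρ Real.continuous_sqrt.continuousOn Real.continuous_sqrt.continuousOn]
  conv_rhs => rw [← cfc_id ℝ ρ h.isSelfAdjoint]
  exact cfc_congr fun x hx => Real.mul_self_sqrt (spectrum_nonneg_of_nonneg h0 hx)

theorem sqrtOp_pos (ρ : H →L[ℂ] H) : (sqrtOp ρ).IsPositive :=
  (ContinuousLinearMap.nonneg_iff_isPositive _).1 (cfc_nonneg fun x _ => Real.sqrt_nonneg x)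

theorem norm_sqrtOp {ρ : H →L[ℂ] H} (h : ρ.IsPositive) (x : H) :
    ‖sqrtOp ρ x‖ ^ 2 = (⟪x, ρ x⟫_ℂ).re := by
  conv_rhs => rw [← sqrtOp_mul h]
  rw [ContinuousLinearMap.mul_def, ContinuousLinearMap.comp_apply,
    ← (sqrtOp_pos ρ).inner_left_eq_inner_right, Ptr.re_inner_self]

theorem negMulLogOp_eq (ρ : H →L[ℂ] H) : negMulLogOp ρ = P369.negMulLogOp ρ := by
  unfold negMulLogOp P369.negMulLogOp
  rw [Real.negMulLog_eq_neg]

theorem nb_of_hilbertBasis {ι : Type} (b : HilbertBasis ι ℂ H) : P369.Sys.IsNumberBasis b :=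
  ⟨b.orthonormal, Submodule.dense_iff_topologicalClosure_eq_top.2 b.dense_span⟩

theorem inner_real {T : H →L[ℂ] H} (h : T.IsPositive) (x : H) :
    ⟪x, T x⟫_ℂ = ((⟪x, T x⟫_ℂ).re : ℂ) := by
  have h1 := h.inner_nonneg_right x
  exact (Complex.eq_re_of_ofReal_le h1)

end general

theorem nb_single (ι : Type) [DecidableEq ι] :
    IsNumberBasis fun k : ι => (lp.single 2 k 1 : lp (fun _ : ι => ℂ) 2) := by
  have h : ∀ (k : ι) (v : lp (fun _ : ι => ℂ) 2),
      ⟪(lp.single 2 k 1 : lp (fun _ : ι => ℂ) 2), v⟫_ℂ = v k := by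
    intro k v
    rw [lp.inner_single_left]
    simp
  apply isNumberBasis_of_orth
  · rw [orthonormal_iff_ite]
    intro k k'
    rw [h, lp.single_apply, Pi.single_apply]
  · intro v hv
    ext k
    rw [← h, hv]
    rfl

variable {H K : Type} [NormedAddCommGroup H] [InnerProductSpace ℂ H] [CompleteSpace H]
  [NormedAddCommGroup K] [InnerProductSpace ℂ K] [CompleteSpace K] {m n : ℕ}

section one

variable {e : (Fin m → ℕ) → H}

theorem tr_basis {ι κ : Type} {e : κ → H} (he : IsNumberBasis e) {T : H →L[ℂ] H}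
    (h : T.IsPositive) (b : HilbertBasis ι ℂ H) : tr e T = tr b T := by
  unfold tr
  simp only [← norm_sqrtOp h]
  exact Ptr.hs_eq he (nb_of_hilbertBasis b) (sqrtOp T)

theorem mean_basis (he : IsNumberBasis e) {T : H →L[ℂ] H} (h : T.IsPositive) {ι : Type}
    (b : HilbertBasis ι ℂ H) :
    ∑ j, ∑' i, sqForm (ann e j) (sqrtOp T (b i)) =
      ∑' k : Fin m → ℕ, (∑ j, (k j : ℝ≥0∞)) * ENNReal.ofReal (⟪e k, T (e k)⟫_ℂ).re := by
  simp only [sqForm_ann he, Finset.sum_mul]
  rw [Summable.tsum_finsetSum fun _ _ => ENNReal.summable]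
  refine Finset.sum_congr rfl fun j _ => ?_
  rw [ENNReal.tsum_comm]
  refine tsum_congr fun k => ?_
  rw [ENNReal.tsum_mul_left, ← norm_sqrtOp h, ← Ptr.tsum_enorm_sq' b]
  congr 1
  refine tsum_congr fun i => ?_
  rw [← (sqrtOp_pos T).inner_left_eq_inner_right, norm_inner_symm]

theorem mean_eq (he : IsNumberBasis e) {T : H →L[ℂ] H} (h : T.IsPositive) :
    meanPhoton e T =
      ∑' k : Fin m → ℕ, (∑ j, (k j : ℝ≥0∞)) * ENNReal.ofReal (⟪e k, T (e k)⟫_ℂ).re := by
  rw [← mean_basis he h (Ptr.hbas he)]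
  simp only [Ptr.hbas_apply]
  rfl

theorem state_iff {ρ : H →L[ℂ] H} : IsState e ρ ↔ P369.Sys.IsState e ρ := by
  refine and_congr_right fun h => ?_
  have h0 : ∀ k : Fin m → ℕ, 0 ≤ (⟪e k, ρ (e k)⟫_ℂ).re := fun k => h.re_inner_nonneg_right _
  unfold tr
  constructor
  · intro h1
    have s := (Ptr.summable_iff_ne_top h0).2 (h1 ▸ ENNReal.one_ne_top)
    rw [← ENNReal.ofReal_tsum_of_nonneg h0 s, ENNReal.ofReal_eq_one] at h1
    have h2 := Complex.hasSum_ofReal.2 (h1 ▸ s.hasSum)
    exact h2.congr_fun fun k => inner_real h _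
  · intro h1
    have h2 := Complex.hasSum_re h1
    rw [← ENNReal.ofReal_tsum_of_nonneg h0 h2.summable, h2.tsum_eq]
    simp

theorem energy_iff (he : IsNumberBasis e) {ρ : H →L[ℂ] H} (h : ρ.IsPositive) :
    meanPhoton e ρ ≠ ⊤ ↔ P369.Sys.FiniteEnergy e ρ := by
  unfold P369.Sys.FiniteEnergy
  have h0 : ∀ k : Fin m → ℕ, 0 ≤ (∑ j, (k j : ℝ)) * (⟪e k, ρ (e k)⟫_ℂ).re := fun k =>
    mul_nonneg (Finset.sum_nonneg fun j _ => Nat.cast_nonneg _) (h.re_inner_nonneg_right _)
  rw [mean_eq he h, Ptr.summable_iff_ne_top h0]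
  refine iff_of_eq (congrArg (· ≠ ⊤) (tsum_congr fun k => ?_))
  rw [ENNReal.ofReal_mul (Finset.sum_nonneg fun j _ => Nat.cast_nonneg _),
    ENNReal.ofReal_sum_of_nonneg fun j _ => Nat.cast_nonneg _]
  simp only [ENNReal.ofReal_natCast]

theorem entropy_spec (he : IsNumberBasis e) {ρ : H →L[ℂ] H} (h : IsState e ρ)
    (hE : meanPhoton e ρ ≠ ⊤) :
    (negMulLogOp ρ).IsPositive ∧ entropy e ρ ≠ ⊤ ∧
      (entropy e ρ).toReal = P369.Sys.entropy e ρ := by
  have hs := state_iff.1 h
  have s := P369V.g3_summable he hs ((energy_iff he h.1).1 hE)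
  have h0 := P369V.g3_term_nonneg he hs
  have e0 : entropy e ρ = ENNReal.ofReal (P369.Sys.entropy e ρ) := by
    unfold entropy tr P369.Sys.entropy
    rw [negMulLogOp_eq, ENNReal.ofReal_tsum_of_nonneg h0 s]
  refine ⟨?_, ?_, ?_⟩
  · rw [negMulLogOp_eq]
    exact P369Y.negMulLogOp_isPositive he hs
  · rw [e0]
    exact ENNReal.ofReal_ne_top
  · rw [e0]
    exact ENNReal.toReal_ofReal (tsum_nonneg h0)

theorem photon_eq (he : IsNumberBasis e) {ρ : H →L[ℂ] H} (h : IsState e ρ)
    (hE : meanPhoton e ρ ≠ ⊤) : photonNumber e ρ = P369.Sys.photonNumber e ρ := by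
  unfold photonNumber P369.Sys.photonNumber
  rw [(entropy_spec he h hE).2.2]
  rfl

theorem g_bij : StrictMonoOn g (Set.Ici 0) ∧ Set.BijOn g (Set.Ici 0) (Set.Ici 0) := by
  have h : StrictMonoOn g (Set.Ici 0) := P369.g_strictMono
  refine ⟨h, fun x hx => ?_, h.injOn, fun y hy => P369.exists_g hy⟩
  have h1 := h.monotoneOn Set.self_mem_Ici hx hx
  have h2 : g 0 = 0 := by simp [g]
  rwa [h2] at h1

theorem photon_spec (ρ : H →L[ℂ] H) :
    0 ≤ photonNumber e ρ ∧ g (photonNumber e ρ) = (entropy e ρ).toReal / m :=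
  P369.invFunOn_g (div_nonneg ENNReal.toReal_nonneg (Nat.cast_nonneg m))

end one

theorem hasSum_mul_th {r : ℝ} (hr : 0 ≤ r) : HasSum (fun k : ℕ => (k : ℝ) * P369T.th r k) r := by
  have h := (hasSum_coe_mul_geometric_of_norm_lt_one (𝕜 := ℝ) (r := r / (r + 1)) (by
    rw [Real.norm_of_nonneg (by positivity)]; exact P369T.th_ratio_lt hr)).mul_right (r + 1)⁻¹
  have e : r / (r + 1) / (1 - r / (r + 1)) ^ 2 * (r + 1)⁻¹ = r := by
    have h1 : 1 - r / (r + 1) = (r + 1)⁻¹ := by field_simp; ring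
    rw [h1]
    field_simp
  rw [e] at h
  refine h.congr_fun fun k => ?_
  rw [P369T.th_eq hr]
  ring

theorem hasSum_energy_thn {r : ℝ} (hr : 0 ≤ r) :
    HasSum (fun k : Conf n => (∑ j, (k j : ℝ)) * P369T.thn r k) (n * r) := by
  have key : ∀ j : Fin n, HasSum (fun k : Conf n => (k j : ℝ) * P369T.thn r k) r := by
    intro j
    have h : ∀ i : Fin n, HasSum
        (fun k : ℕ => if i = j then (k : ℝ) * P369T.th r k else P369T.th r k)
        (if i = j then r else 1) := by
      intro i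
      by_cases hi : i = j
      · simp only [hi, if_true]
        exact hasSum_mul_th hr
      · simp only [hi, if_false]
        exact P369T.hasSum_th hr
    have h2 := P369T.hasSum_pi_prod h
    rw [Finset.prod_ite_eq' Finset.univ j (fun _ => r), if_pos (Finset.mem_univ j)] at h2
    refine h2.congr_fun fun k => ?_
    unfold P369T.thn
    rw [← Finset.mul_prod_erase Finset.univ _ (Finset.mem_univ j),
      ← Finset.mul_prod_erase Finset.univ
        (fun i => if i = j then (k i : ℝ) * P369T.th r (k i) else P369T.th r (k i))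
        (Finset.mem_univ j)]
    simp only [if_true]
    rw [mul_assoc]
    congr 2
    apply Finset.prod_congr rfl
    intro i hi
    rw [if_neg (Finset.ne_of_mem_erase hi)]
  have h3 := hasSum_sum (s := Finset.univ) fun j _ => key j
  simp only [Finset.sum_const, Finset.card_univ, Fintype.card_fin, nsmul_eq_mul] at h3
  simpa only [Finset.sum_mul] using h3

theorem thermal {e : (Fin n → ℕ) → H} (he : IsNumberBasis e) (hn : 1 ≤ n) {r : ℝ} (hr : 0 ≤ r) :
    (∃! τ : H →L[ℂ] H, IsThermal e r τ) ∧ ∀ τ : H →L[ℂ] H, IsThermal e r τ →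
      IsState e τ ∧ meanPhoton e τ = ENNReal.ofReal (n * r) ∧ photonNumber e τ = r := by
  have hp := P369T.thn_isProb (n := n) hr
  have hd : ∀ k : Conf n, ‖((P369T.thn r k : ℝ) : ℂ)‖ ≤ 1 := fun k => by
    rw [Complex.norm_real, Real.norm_of_nonneg (hp.1 k)]
    exact hp.le_one k
  have huniq : ∀ τ τ' : H →L[ℂ] H, IsThermal e r τ → IsThermal e r τ' → τ = τ' :=
    fun τ τ' h h' => clm_ext he fun k => (h k).trans (h' k).symm
  obtain ⟨T, hT⟩ := P369.exists_repr he
  have h0 : IsThermal e r (P369.cj T.symm (P369.diagOp _ hd)) := by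
    intro k
    rw [P369.cj_apply, LinearIsometryEquiv.symm_symm, LinearIsometryEquiv.symm_apply_eq, map_smul,
      hT]
    ext a
    rw [P369.diagOp_apply, lp.coeFn_smul, Pi.smul_apply, lp.single_apply, Pi.single_apply]
    split_ifs with h
    · subst h
      rw [smul_eq_mul]
      rfl
    · simp
  refine ⟨⟨_, h0, fun τ h => huniq _ _ h h0⟩, fun τ hτ => ?_⟩
  have hτ' : ∀ k, τ (e k) = (P369T.thn r k : ℂ) • e k := hτ
  have hin := P369.inner_sys he.1 hτ'
  have hpos : τ.IsPositive := by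
    refine isPositive_of_gram he (w := fun k => ((√(P369T.thn r k) : ℝ) : ℂ) • e k) ?_
    intro k k'
    rw [hτ', inner_smul_right, inner_smul_left, inner_smul_right, inner_ket he,
      Complex.conj_ofReal]
    split_ifs with h
    · subst h
      rw [mul_one, mul_one, ← Complex.ofReal_mul, Real.mul_self_sqrt (hp.1 k)]
    · simp
  have hs : P369.Sys.IsState e τ := by
    refine ⟨hpos, ?_⟩
    simp only [hin]
    exact Complex.hasSum_ofReal.2 hp.2
  have hm : meanPhoton e τ = ENNReal.ofReal (n * r) := by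
    have h1 := hasSum_energy_thn (n := n) hr
    rw [mean_eq he hpos, ← h1.tsum_eq, ENNReal.ofReal_tsum_of_nonneg (fun k =>
      mul_nonneg (Finset.sum_nonneg fun j _ => Nat.cast_nonneg _) (hp.1 k)) h1.summable]
    refine tsum_congr fun k => ?_
    rw [hin, Complex.ofReal_re, ENNReal.ofReal_mul (Finset.sum_nonneg fun j _ => Nat.cast_nonneg _),
      ENNReal.ofReal_sum_of_nonneg fun j _ => Nat.cast_nonneg _]
    simp only [ENNReal.ofReal_natCast]
  refine ⟨state_iff.2 hs, hm, ?_⟩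
  rw [photon_eq he (state_iff.2 hs) (hm ▸ ENNReal.ofReal_ne_top)]
  exact P369T.photonNumber_thermal hn hr he hs hτ'

/-! ### the beam splitter -/

theorem append_addA (j : Fin n) (k l : Conf n) :
    Fin.append k l + Pi.single (Fin.castAdd n j) 1 = Fin.append (up k j) l := by
  funext i
  refine Fin.addCases (fun i => ?_) (fun i => ?_) i
  · by_cases h : i = j
    · subst h
      simp [up, -Fin.natAdd_eq_addNat]
    · simp [up, h, Fin.castAdd_inj]
  · have : Fin.natAdd n i ≠ Fin.castAdd n j := by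
      intro h
      have := congrArg Fin.val h
      simp at this
      omega
    simp [this, -Fin.natAdd_eq_addNat]

theorem append_subA (j : Fin n) (k l : Conf n) :
    Fin.append k l - Pi.single (Fin.castAdd n j) 1 = Fin.append (down k j) l := by
  funext i
  refine Fin.addCases (fun i => ?_) (fun i => ?_) i
  · by_cases h : i = j
    · subst h
      simp [down, -Fin.natAdd_eq_addNat]
    · simp [down, h, Fin.castAdd_inj]
  · have : Fin.natAdd n i ≠ Fin.castAdd n j := by
      intro h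
      have := congrArg Fin.val h
      simp at this
      omega
    simp [this, -Fin.natAdd_eq_addNat]

theorem append_addB (j : Fin n) (k l : Conf n) :
    Fin.append k l + Pi.single (Fin.natAdd n j) 1 = Fin.append k (up l j) := by
  funext i
  refine Fin.addCases (fun i => ?_) (fun i => ?_) i
  · have : Fin.castAdd n i ≠ Fin.natAdd n j := by
      intro h
      have := congrArg Fin.val h
      simp at this
      omega
    simp [this, -Fin.natAdd_eq_addNat]
  · by_cases h : i = j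
    · subst h
      simp [up, -Fin.natAdd_eq_addNat]
    · simp [up, h, Fin.natAdd_inj, -Fin.natAdd_eq_addNat]

theorem append_subB (j : Fin n) (k l : Conf n) :
    Fin.append k l - Pi.single (Fin.natAdd n j) 1 = Fin.append k (down l j) := by
  funext i
  refine Fin.addCases (fun i => ?_) (fun i => ?_) i
  · have : Fin.castAdd n i ≠ Fin.natAdd n j := by
      intro h
      have := congrArg Fin.val h
      simp at this
      omega
    simp [this, -Fin.natAdd_eq_addNat]
  · by_cases h : i = j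
    · subst h
      simp [down, -Fin.natAdd_eq_addNat]
    · simp [down, h, Fin.natAdd_inj, -Fin.natAdd_eq_addNat]

variable {e : (Fin n → ℕ) → H} {f : (Fin (n + n) → ℕ) → K}

/-- `|k⟩ ⊗ |l⟩` -/
def ket2 (f : (Fin (n + n) → ℕ) → K) (k l : Conf n) : K := f (Fin.append k l)

theorem nb_ket2 (hf : IsNumberBasis f) :
    IsNumberBasis fun x : Conf n × Conf n => ket2 f x.1 x.2 := by
  apply isNumberBasis_of_orth
  · exact hf.1.comp (Fin.appendEquiv n n) (Fin.appendEquiv n n).injective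
  · intro v hv
    refine ext_nb hf fun k => ?_
    obtain ⟨x, rfl⟩ := (Fin.appendEquiv n n).surjective k
    rw [inner_zero_right]
    exact hv x

theorem isTens (he : IsNumberBasis e) (hf : IsNumberBasis f) : IsTens e (ket2 f) (tmul e f) := by
  obtain ⟨t, ht⟩ := exists_tens he (nb_ket2 hf)
  have h : tmul e f = t := by
    funext φ χ
    have h1 := hasSum_ket (nb_ket2 hf) (t φ χ)
    simp only [ht φ χ] at h1
    exact h1.tsum_eq
  rw [h]
  exact ht

theorem tmul_ket (he : IsNumberBasis e) (hf : IsNumberBasis f) (k l : Conf n) :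
    tmul e f (e k) (e l) = ket2 f k l :=
  (isTens he hf).basis he (nb_ket2 hf) k l

theorem upA (j : Fin n) (k l : Conf n) :
    upKet f (Fin.castAdd n j) (Fin.append k l) = P369.Sys.creA (ket2 f) j k l := by
  unfold upKet P369.Sys.creA ket2
  rw [append_addA, Fin.append_left]

theorem upB (j : Fin n) (k l : Conf n) :
    upKet f (Fin.natAdd n j) (Fin.append k l) = P369.Sys.creB (ket2 f) j k l := by
  unfold upKet P369.Sys.creB ket2
  rw [append_addB, Fin.append_right]

theorem lowA (j : Fin n) (k l : Conf n) :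
    lowKet f (Fin.castAdd n j) (Fin.append k l) = P369.Sys.annA (ket2 f) j k l := by
  unfold lowKet P369.Sys.annA ket2
  rw [append_subA, Fin.append_left]

theorem lowB (j : Fin n) (k l : Conf n) :
    lowKet f (Fin.natAdd n j) (Fin.append k l) = P369.Sys.annB (ket2 f) j k l := by
  unfold lowKet P369.Sys.annB ket2
  rw [append_subB, Fin.append_right]

theorem ket2_zero : ket2 f (0 : Conf n) 0 = f 0 := by
  unfold ket2
  congr 1
  funext i
  refine Fin.addCases (fun i => ?_) (fun i => ?_) i <;> simp [-Fin.natAdd_eq_addNat]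

theorem bs_iff (hf : IsNumberBasis f) {η : ℝ} {U : K ≃ₗᵢ[ℂ] K} :
    IsBeamSplitter f η U ↔ P369.Sys.IsBeamSplitter η (ket2 f) U := by
  constructor
  · rintro ⟨h0, h⟩
    refine ⟨by rw [ket2_zero, h0], fun j k l k' l' => ⟨?_, ?_⟩⟩
    · rw [← upA, ← lowA, ← lowB]
      exact elem_of_conj hf (h j).1 _ _
    · rw [← upB, ← lowA, ← lowB, ← Complex.ofReal_neg]
      exact elem_of_conj hf (h j).2 _ _
  · intro hU
    have hfin : ∀ k, U.symm (f k) ∈ Submodule.span ℂ (Set.range f) := by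
      intro k
      obtain ⟨x, rfl⟩ := (Fin.appendEquiv n n).surjective k
      have h := P369Top.bs_symm_apply (nb_ket2 hf) hU x.1 x.2
      change U.symm (ket2 f x.1 x.2) ∈ _
      rw [h]
      exact Submodule.sum_mem _ fun y _ =>
        Submodule.smul_mem _ _ (Submodule.subset_span ⟨_, rfl⟩)
    refine ⟨by rw [← ket2_zero (f := f), hU.1], fun j => ⟨?_, ?_⟩⟩
    · refine conj_eq_closure hf (fun k k' => ?_) hfin
      obtain ⟨x, rfl⟩ := (Fin.appendEquiv n n).surjective k
      obtain ⟨y, rfl⟩ := (Fin.appendEquiv n n).surjective k'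
      have h := (hU.2 j x.1 x.2 y.1 y.2).1
      rw [← upA, ← lowA, ← lowB] at h
      exact h
    · refine conj_eq_closure hf (fun k k' => ?_) hfin
      obtain ⟨x, rfl⟩ := (Fin.appendEquiv n n).surjective k
      obtain ⟨y, rfl⟩ := (Fin.appendEquiv n n).surjective k'
      have h := (hU.2 j x.1 x.2 y.1 y.2).2
      rw [← upB, ← lowA, ← lowB, ← Complex.ofReal_neg] at h
      exact h

theorem bs_unique (hf : IsNumberBasis f) {η : ℝ} {U V : K ≃ₗᵢ[ℂ] K} (hU : IsBeamSplitter f η U)
    (hV : IsBeamSplitter f η V) : U = V := by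
  have h : (U : K →L[ℂ] K) = (V : K →L[ℂ] K) := by
    refine clm_ext (nb_ket2 hf) fun x => fext (nb_ket2 hf) fun a b => ?_
    exact (P369Top.bs_inner (nb_ket2 hf) ((bs_iff hf).1 hU) a b x.1 x.2).trans
      (P369Top.bs_inner (nb_ket2 hf) ((bs_iff hf).1 hV) a b x.1 x.2).symm
  exact LinearIsometryEquiv.ext fun x => DFunLike.congr_fun h x

theorem bs_existsUnique (hf : IsNumberBasis f) {η : ℝ} (h0 : 0 ≤ η) (h1 : η ≤ 1) :
    ∃! U : K ≃ₗᵢ[ℂ] K, IsBeamSplitter f η U := by
  obtain ⟨T, hT⟩ := P369.exists_repr (nb_ket2 hf)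
  obtain ⟨U, hU⟩ := P369.exists_bs (n := n) h0 h1
  have h := (bs_iff hf).2 (P369.bs_from hU T fun k l => hT (k, l))
  exact ⟨_, h, fun V hV => bs_unique hf hV h⟩

theorem product_iff (he : IsNumberBasis e) (hf : IsNumberBasis f) {A B : H →L[ℂ] H}
    {σ : K →L[ℂ] K} : IsProduct e f A B σ ↔ P369.Sys.IsProduct e (ket2 f) A B σ := by
  constructor
  · intro h k l k' l'
    rw [← tmul_ket he hf k' l', h, isTens he hf]
  · intro h
    refine (isTens he hf).product he (nb_ket2 hf) he he fun k l k' l' => ?_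
    rw [tmul_ket he hf, tmul_ket he hf]
    exact h k l k' l'

theorem product_unique (he : IsNumberBasis e) (hf : IsNumberBasis f) {A B : H →L[ℂ] H}
    {σ τ : K →L[ℂ] K} (hσ : IsProduct e f A B σ) (hτ : IsProduct e f A B τ) : σ = τ :=
  (isTens he hf).ext₂ he (nb_ket2 hf) he he fun k l => (hσ _ _).trans (hτ _ _).symm

theorem evolve_apply (U : K ≃ₗᵢ[ℂ] K) (σ : K →L[ℂ] K) (x : K) :
    evolve U σ x = U (σ (U.symm x)) := by
  unfold evolve
  rw [LinearIsometryEquiv.adjoint_eq_symm]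
  rfl

theorem evolve_pos (U : K ≃ₗᵢ[ℂ] K) {σ : K →L[ℂ] K} (h : σ.IsPositive) :
    (evolve U σ).IsPositive := h.conj_adjoint _

theorem ptr_unique {σ : K →L[ℂ] K} {ρ ρ' : H →L[ℂ] H}
    (h : IsPartialTrace e f σ ρ) (h' : IsPartialTrace e f σ ρ') : ρ = ρ' :=
  ContinuousLinearMap.ext fun φ => ext_inner_left ℂ fun ψ => (h ψ φ).unique (h' ψ φ)

theorem main (he : IsNumberBasis e) (hf : IsNumberBasis f) (hn : 1 ≤ n) {η : ℝ} (h0 : 0 ≤ η)
    (h1 : η ≤ 1) {U : K ≃ₗᵢ[ℂ] K} (hU : IsBeamSplitter f η U)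
    {ρA ρB : H →L[ℂ] H} (hA : IsState e ρA) (hB : IsState e ρB)
    (eA : meanPhoton e ρA ≠ ⊤) (eB : meanPhoton e ρB ≠ ⊤) :
    (∃! σ, IsProduct e f ρA ρB σ) ∧ ∀ σ, IsProduct e f ρA ρB σ →
      (∃! ρC, IsPartialTrace e f (evolve U σ) ρC) ∧
        ∀ ρC, IsPartialTrace e f (evolve U σ) ρC →
        IsState e ρC ∧ meanPhoton e ρC ≠ ⊤ ∧
          η * photonNumber e ρA + (1 - η) * photonNumber e ρB ≤ photonNumber e ρC := by
  have hf2 := nb_ket2 hf
  obtain ⟨⟨ρ, V, τ, hV, hτ, hρ⟩, hall⟩ := P369Main.epni hn h0 h1 e he (ket2 f) hf2 ρA ρB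
    (state_iff.1 hA) (state_iff.1 hB) ((energy_iff he hA.1).1 eA) ((energy_iff he hB.1).1 eB)
  have hτ' := (product_iff he hf).2 hτ
  obtain rfl : U = V := bs_unique hf hU ((bs_iff hf).2 hV)
  refine ⟨⟨τ, hτ', fun σ hσ => product_unique he hf hσ hτ'⟩, fun σ hσ => ?_⟩
  obtain rfl : σ = τ := product_unique he hf hσ hτ'
  have hp : IsPartialTrace e f (evolve U σ) ρ := by
    refine ptr_all he hf2 (isTens he hf)
      (evolve_pos U (isProduct_isPositive he hf2 hA.1 hB.1 hτ)) he he he fun k k' => ?_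
    simp only [tmul_ket he hf, evolve_apply]
    exact hρ k k'
  refine ⟨⟨ρ, hp, fun ρ' h' => ptr_unique h' hp⟩, fun ρC hC => ?_⟩
  obtain rfl : ρC = ρ := ptr_unique hC hp
  obtain ⟨s1, s2, s3⟩ := hall ρC ⟨U, σ, hV, hτ, hρ⟩
  have t1 := state_iff.2 s1
  have t2 := (energy_iff he s1.1).2 s2
  refine ⟨t1, t2, ?_⟩
  rw [photon_eq he hA eA, photon_eq he hB eB, photon_eq he t1 t2]
  exact s3

end

end Vale.Agent.P369L
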